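import Vale.Agent.P338.Alg

namespace Vale.Agent.Results.P338.Fast

open Vale.Agent.P338

theorem result :
    (∃ M : TM, M.Multiplies ∧ ∃ C κ : ℝ, 0 < κ ∧ ∀ n : ℕ, 2 ≤ n →
      (M.T n : ℝ) ≤ C * n * Real.log n ^ (1 - κ)) ∧
    ¬ ∀ M : TM, M.Multiplies → ∃ c : ℝ, 0 < c ∧ ∃ N : ℕ, 2 ≤ N ∧ ∀ n : ℕ, N ≤ n →
      c * n * Real.log n ≤ M.T n :=
  final alg

end Vale.Agent.Results.P338.Fast
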